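import Vale.Agent.Lib.P336.Circ

/-! # P336: every Boolean function has an OR-AND-OR circuit with about 2 * 2^(n/2) gates -/

namespace Vale.Agent.Results.P336.UniversalUpperBound
open _root_.P336

theorem result :
    ∀ (n : ℕ) (f : (Fin n → Bool) → Bool), ∃ C : Circ (Fin n),
      (∀ x, C.eval x ↔ f x = true) ∧ C.size ≤ 2 ^ (n / 2) + 2 ^ (n - n / 2) + n + 1 := by
  intro n f
  have h : n / 2 + (n - n / 2) = n := by omega
  let e : Fin (n / 2) ⊕ Fin (n - n / 2) ≃ Fin n := finSumFinEquiv.trans (finCongr h)
  let g : (Fin (n / 2) ⊕ Fin (n - n / 2) → Bool) → Bool := fun y => f (fun i => y (e.symm i))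
  refine ⟨(build (n / 2) (n - n / 2) g).rename e, fun x => ?_, ?_⟩
  · rw [Circ.eval_rename, eval_build]
    have : (fun i => (fun j => x (e j)) (e.symm i)) = x := by
      funext i
      simp
    show f (fun i => (fun j => x (e j)) (e.symm i)) = true ↔ f x = true
    rw [this]
  · rw [Circ.size_rename, size_build]
    omega

end Vale.Agent.Results.P336.UniversalUpperBound
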